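import Mathlib

/-!
Averages of measure valued functions of a finite reversible chain are stable along edges in
Kolmogorov distance.  Functions from the state space to signed measures on `Fin n` are
matrices, and the chain acts by multiplication from the left.
-/

namespace Vale.Agent.P125.Op

open Finset Matrix

variable {S : Type} [Fintype S] [DecidableEq S] {n : ℕ}

set_option linter.unusedSectionVars false

/-- A finite chain that is stationary and reversible. -/
structure Chain (S : Type) [Fintype S] where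
  mass : S → ℝ
  step : Matrix S S ℝ
  mass_nonneg : ∀ x, 0 ≤ mass x
  mass_sum : ∑ x, mass x = 1
  step_nonneg : ∀ x y, 0 ≤ step x y
  step_sum : ∀ x, ∑ y, step x y = 1
  rev : ∀ x y, mass x * step x y = mass y * step y x

variable (c : Chain S)

/-- The weighted pairing of two measure valued functions. -/
def pair (u v : Matrix S (Fin n) ℝ) : ℝ := ∑ z, c.mass z * ∑ a, u z a * v z a

/-- The expectation of a function of an edge. -/
def e2 (H : S → S → ℝ) : ℝ := ∑ x, ∑ y, c.mass x * c.step x y * H x y

lemma e2_swap (H : S → S → ℝ) : e2 c (fun x y => H y x) = e2 c H := by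
  unfold e2
  rw [sum_comm]
  refine sum_congr rfl fun y _ => sum_congr rfl fun x _ => ?_
  rw [c.rev y x]

lemma e2_mono {H K : S → S → ℝ} (h : ∀ x y, H x y ≤ K x y) : e2 c H ≤ e2 c K :=
  sum_le_sum fun x _ => sum_le_sum fun y _ =>
    mul_le_mul_of_nonneg_left (h x y) (mul_nonneg (c.mass_nonneg x) (c.step_nonneg x y))

lemma e2_const (b : ℝ) : e2 c (fun _ _ => b) = b := by
  unfold e2
  simp only [← sum_mul, ← mul_sum, c.step_sum, mul_one, c.mass_sum, one_mul]

lemma e2_add (H K : S → S → ℝ) : e2 c (fun x y => H x y + K x y) = e2 c H + e2 c K := by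
  simp only [e2, mul_add, sum_add_distrib]

lemma e2_mul (b : ℝ) (H : S → S → ℝ) : e2 c (fun x y => b * H x y) = b * e2 c H := by
  unfold e2
  rw [mul_sum]
  refine sum_congr rfl fun x _ => ?_
  rw [mul_sum]
  refine sum_congr rfl fun y _ => ?_
  ring

lemma e2_neg (H : S → S → ℝ) : e2 c (fun x y => - H x y) = - e2 c H := by
  simp only [e2, mul_neg, sum_neg_distrib]

lemma abs_e2_le (H : S → S → ℝ) : |e2 c H| ≤ e2 c (fun x y => |H x y|) := by
  rw [abs_le]
  constructor
  · rw [neg_le, ← e2_neg c]
    exact e2_mono c fun x y => neg_le_abs _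
  · exact e2_mono c fun x y => le_abs_self _

lemma pair_comm (u v : Matrix S (Fin n) ℝ) : pair c u v = pair c v u := by
  unfold pair
  simp only [mul_comm (u _ _) (v _ _)]

lemma pair_step (u v : Matrix S (Fin n) ℝ) : pair c (c.step * u) v = pair c u (c.step * v) := by
  have h : ∀ p q : Matrix S (Fin n) ℝ, pair c (c.step * p) q
      = e2 c (fun x y => ∑ a, p y a * q x a) := by
    intro p q
    unfold pair e2
    refine sum_congr rfl fun x _ => ?_
    simp only [Matrix.mul_apply, sum_mul, mul_sum]
    rw [sum_comm]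
    exact sum_congr rfl fun y _ => sum_congr rfl fun a _ => by ring
  rw [pair_comm c u, h, h, ← e2_swap]
  simp only [mul_comm]

lemma pair_pow (d : ℕ) (u v : Matrix S (Fin n) ℝ) :
    pair c (c.step ^ d * u) v = pair c u (c.step ^ d * v) := by
  induction d generalizing u v with
  | zero => simp
  | succ d ih =>
    rw [pow_succ, Matrix.mul_assoc, ih, pair_step, ← Matrix.mul_assoc, pow_mul_comm']

lemma pair_add_right (u v w : Matrix S (Fin n) ℝ) :
    pair c u (v + w) = pair c u v + pair c u w := by
  simp only [pair, Matrix.add_apply, mul_add, sum_add_distrib]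

lemma pair_sub_right (u v w : Matrix S (Fin n) ℝ) :
    pair c u (v - w) = pair c u v - pair c u w := by
  simp only [pair, Matrix.sub_apply, mul_sub, sum_sub_distrib]

lemma pair_sub_left (u v w : Matrix S (Fin n) ℝ) :
    pair c (u - v) w = pair c u w - pair c v w := by
  rw [pair_comm, pair_sub_right, pair_comm c w, pair_comm c w]

lemma pair_sum_right {ι : Type} (s : Finset ι) (u : Matrix S (Fin n) ℝ)
    (v : ι → Matrix S (Fin n) ℝ) : pair c u (∑ i ∈ s, v i) = ∑ i ∈ s, pair c u (v i) := by
  classical
  induction s using Finset.induction_on with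
  | empty => simp [pair]
  | insert i s hi ih => rw [sum_insert hi, sum_insert hi, pair_add_right, ih]

lemma pair_sum_left {ι : Type} (s : Finset ι) (u : Matrix S (Fin n) ℝ)
    (v : ι → Matrix S (Fin n) ℝ) : pair c (∑ i ∈ s, v i) u = ∑ i ∈ s, pair c (v i) u := by
  rw [pair_comm, pair_sum_right]
  exact sum_congr rfl fun i _ => pair_comm c _ _

/-- All total variations are at most `b`. -/
def Tot (b : ℝ) (u : Matrix S (Fin n) ℝ) : Prop := ∀ z, ∑ a, |u z a| ≤ b

/-- All entries are nonnegative. -/
def Pos (u : Matrix S (Fin n) ℝ) : Prop := ∀ z a, 0 ≤ u z a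

lemma Tot.step_mul {b : ℝ} {u : Matrix S (Fin n) ℝ} (h : Tot b u) : Tot b (c.step * u) := by
  intro z
  calc ∑ a, |(c.step * u) z a| ≤ ∑ a, ∑ y, c.step z y * |u y a| := by
        refine sum_le_sum fun a _ => ?_
        rw [Matrix.mul_apply]
        refine (abs_sum_le_sum_abs _ _).trans (sum_le_sum fun y _ => ?_)
        rw [abs_mul, abs_of_nonneg (c.step_nonneg z y)]
    _ = ∑ y, c.step z y * ∑ a, |u y a| := by rw [sum_comm]; simp only [mul_sum]
    _ ≤ ∑ y, c.step z y * b :=
        sum_le_sum fun y _ => mul_le_mul_of_nonneg_left (h y) (c.step_nonneg z y)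
    _ = b := by rw [← sum_mul, c.step_sum, one_mul]

lemma Tot.pow_mul {b : ℝ} {u : Matrix S (Fin n) ℝ} (h : Tot b u) (d : ℕ) :
    Tot b (c.step ^ d * u) := by
  induction d with
  | zero => simpa using h
  | succ d ih => rw [pow_succ', Matrix.mul_assoc]; exact ih.step_mul c

lemma Pos.step_mul {u : Matrix S (Fin n) ℝ} (h : Pos u) : Pos (c.step * u) := by
  intro z a
  rw [Matrix.mul_apply]
  exact sum_nonneg fun y _ => mul_nonneg (c.step_nonneg z y) (h y a)

lemma Pos.pow_mul {u : Matrix S (Fin n) ℝ} (h : Pos u) (d : ℕ) : Pos (c.step ^ d * u) := by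
  induction d with
  | zero => simpa using h
  | succ d ih => rw [pow_succ', Matrix.mul_assoc]; exact ih.step_mul c

/-- The tails of a family of measures. -/
def tail (v : Matrix S (Fin n) ℝ) : Matrix S (Fin n) ℝ := Matrix.of fun z b => ∑ a ∈ Ici b, v z a

lemma cube_side {v : Matrix S (Fin n) ℝ} (hv : Pos v) (x y : S) (b : Fin n)
    (h : 0 < tail v y b - tail v x b) :
    (tail v y b - tail v x b) ^ 3 ≤ 8 * ∑ a, v y a * (tail v y a - tail v x a) ^ 2 := by
  set e := tail v y b - tail v x b with he
  have anti : ∀ z, ∀ {p q : Fin n}, p ≤ q → tail v z q ≤ tail v z p := fun z p q hpq =>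
    sum_le_sum_of_subset_of_nonneg (Ici_subset_Ici.2 hpq) fun i _ _ => hv z i
  set C := (Ici b).filter fun a => tail v y b - e / 2 ≤ tail v y a with hC
  have hmass : e / 2 ≤ ∑ a ∈ C, v y a := by
    rcases ((Ici b).filter fun a => ¬ (tail v y b - e / 2 ≤ tail v y a)).eq_empty_or_nonempty
      with h0 | h0
    · have : C = Ici b := by
        rw [hC, filter_eq_self]
        intro a ha
        by_contra hh
        exact absurd h0 (Finset.nonempty_iff_ne_empty.1 ⟨a, mem_filter.2 ⟨ha, hh⟩⟩)
      have hx : 0 ≤ tail v x b := sum_nonneg fun i _ => hv x i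
      rw [this]
      show e / 2 ≤ tail v y b
      linarith
    · set B := (Ici b).filter fun a => ¬ (tail v y b - e / 2 ≤ tail v y a)
      set a₀ := B.min' h0 with ha₀def
      have hmem : a₀ ∈ B := B.min'_mem h0
      have hmin : ∀ a ∈ B, a₀ ≤ a := fun a ha => B.min'_le a ha
      have ha₀ : b ≤ a₀ ∧ ¬ (tail v y b - e / 2 ≤ tail v y a₀) := by
        simpa [B, mem_filter, mem_Ici] using hmem
      have hsplit : tail v y b = (∑ a ∈ Ico b a₀, v y a) + tail v y a₀ := by
        show ∑ a ∈ Ici b, v y a = _ + ∑ a ∈ Ici a₀, v y a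
        rw [← sum_union]
        · congr 1
          ext a
          simp only [mem_Ici, mem_union, mem_Ico]
          constructor
          · intro hb
            rcases lt_or_ge a a₀ with h' | h'
            · exact Or.inl ⟨hb, h'⟩
            · exact Or.inr h'
          · rintro (⟨hb, _⟩ | h')
            · exact hb
            · exact ha₀.1.trans h'
        · rw [disjoint_left]
          intro a h1 h2
          rw [mem_Ico] at h1
          rw [mem_Ici] at h2
          exact absurd h2 (not_le.2 h1.2)
      have hsub : Ico b a₀ ⊆ C := by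
        intro a ha
        rw [mem_Ico] at ha
        rw [hC, mem_filter, mem_Ici]
        refine ⟨ha.1, ?_⟩
        by_contra hh
        exact absurd (hmin a (mem_filter.2 ⟨mem_Ici.2 ha.1, hh⟩)) (not_le.2 ha.2)
      have := sum_le_sum_of_subset_of_nonneg hsub (f := fun a => v y a) fun i _ _ => hv y i
      have := not_le.1 ha₀.2
      linarith
  have hd : ∀ a ∈ C, v y a * (e / 2) ^ 2 ≤ v y a * (tail v y a - tail v x a) ^ 2 := by
    intro a ha
    rw [hC, mem_filter, mem_Ici] at ha
    have := anti x ha.1
    refine mul_le_mul_of_nonneg_left ?_ (hv y a)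
    exact pow_le_pow_left₀ (by linarith) (by linarith [ha.2]) 2
  have h2 : (∑ a ∈ C, v y a) * (e / 2) ^ 2 ≤ ∑ a, v y a * (tail v y a - tail v x a) ^ 2 := by
    rw [sum_mul]
    exact (sum_le_sum hd).trans (sum_le_sum_of_subset_of_nonneg (subset_univ C) fun i _ _ =>
      mul_nonneg (hv y i) (sq_nonneg _))
  have h3 : e / 2 * (e / 2) ^ 2 ≤ (∑ a ∈ C, v y a) * (e / 2) ^ 2 :=
    mul_le_mul_of_nonneg_right hmass (sq_nonneg _)
  nlinarith

/-- The weight seen by the cube inequality. -/
def gap (v : Matrix S (Fin n) ℝ) (x y : S) : ℝ := ∑ a, v x a * (tail v y a - tail v x a) ^ 2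

lemma cube {v : Matrix S (Fin n) ℝ} (hv : Pos v) (x y : S) (b : Fin n) :
    |tail v y b - tail v x b| ^ 3 ≤ 8 * (gap v x y + gap v y x) := by
  have g0 : ∀ p q, 0 ≤ gap v p q := fun p q =>
    sum_nonneg fun a _ => mul_nonneg (hv p a) (sq_nonneg _)
  have gflip : ∀ p q : S, ∑ a, v q a * (tail v q a - tail v p a) ^ 2 = gap v q p := fun p q =>
    sum_congr rfl fun a _ => by ring
  rcases lt_trichotomy (tail v y b - tail v x b) 0 with h | h | h
  · have h' : 0 < tail v x b - tail v y b := by linarith
    have := cube_side hv y x b h'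
    rw [gflip] at this
    rw [abs_of_neg h, neg_sub]
    have := g0 y x
    linarith
  · rw [h]; simp only [abs_zero]; have := g0 x y; have := g0 y x; norm_num; linarith
  · have := cube_side hv x y b h
    rw [gflip] at this
    rw [abs_of_pos h]
    have := g0 x y
    linarith

lemma e2_gap_le {v : Matrix S (Fin n) ℝ} (hv : Pos v) {L : ℝ} (hL : Tot L v) (hL0 : 0 ≤ L)
    (hstat : Tot 2 (c.step * v - v)) : e2 c (gap v) ≤ 6 * L ^ 2 := by
  set F := tail v with hF
  have hF0 : ∀ z a, 0 ≤ F z a := fun z a => sum_nonneg fun i _ => hv z i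
  have hFL : ∀ z a, F z a ≤ L := fun z a =>
    le_trans (le_trans (sum_le_sum_of_subset_of_nonneg (subset_univ _) fun i _ _ => hv z i)
      (sum_le_sum fun i _ => le_abs_self _)) (hL z)
  have hPF : ∀ z a, |(c.step * F) z a - F z a| ≤ 2 := by
    intro z a
    have : (c.step * F) z a - F z a = ∑ i ∈ Ici a, ((c.step * v - v) z i) := by
      simp only [hF, tail, Matrix.mul_apply, Matrix.sub_apply, Matrix.of_apply, mul_sum,
        sum_sub_distrib]
      rw [sum_comm]
    rw [this]
    exact ((abs_sum_le_sum_abs _ _).trans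
      (sum_le_sum_of_subset_of_nonneg (subset_univ _) fun i _ _ => abs_nonneg _)).trans (hstat z)
  set F2 : Matrix S (Fin n) ℝ := Matrix.of fun z a => F z a ^ 2 with hF2
  set vF : Matrix S (Fin n) ℝ := Matrix.of fun z a => v z a * F z a with hvF
  have key : e2 c (gap v) = pair c (c.step * v - v) F2 - 2 * pair c vF (c.step * F - F) := by
    rw [pair_sub_left, pair_step, pair_sub_right]
    have h1 : e2 c (gap v) = pair c v (c.step * F2) + pair c v F2 - 2 * pair c vF (c.step * F) := by
      unfold e2 pair gap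
      rw [mul_sum, ← sum_add_distrib, ← sum_sub_distrib]
      refine sum_congr rfl fun x _ => ?_
      have hsq : ∀ a, v x a * F x a ^ 2 = ∑ y, c.step x y * (v x a * F x a ^ 2) := fun a => by
        rw [← sum_mul, c.step_sum, one_mul]
      simp only [hF2, hvF, Matrix.mul_apply, Matrix.of_apply]
      rw [sum_congr rfl (fun a _ => hsq a)]
      simp only [mul_sum]
      rw [sum_comm (γ := Fin n), sum_comm (γ := Fin n), sum_comm (γ := Fin n),
        ← sum_add_distrib, ← sum_sub_distrib]
      refine sum_congr rfl fun y _ => ?_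
      rw [← sum_add_distrib, ← sum_sub_distrib]
      exact sum_congr rfl fun a _ => by ring
    have h2 : pair c vF F = pair c v F2 := by
      simp only [pair, hF2, hvF, Matrix.of_apply, pow_two, mul_assoc]
    rw [h1, h2]; ring
  have b1 : pair c (c.step * v - v) F2 ≤ 2 * L ^ 2 := by
    calc pair c (c.step * v - v) F2
        ≤ ∑ z, c.mass z * ∑ a, |(c.step * v - v) z a| * L ^ 2 := by
          refine sum_le_sum fun z _ => mul_le_mul_of_nonneg_left (sum_le_sum fun a _ => ?_)
            (c.mass_nonneg z)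
          refine (mul_le_mul_of_nonneg_right (le_abs_self _) (sq_nonneg _)).trans ?_
          exact mul_le_mul_of_nonneg_left (pow_le_pow_left₀ (hF0 z a) (hFL z a) 2) (abs_nonneg _)
      _ ≤ ∑ z, c.mass z * (2 * L ^ 2) := by
          refine sum_le_sum fun z _ => mul_le_mul_of_nonneg_left ?_ (c.mass_nonneg z)
          rw [← sum_mul]
          exact mul_le_mul_of_nonneg_right (hstat z) (sq_nonneg _)
      _ = 2 * L ^ 2 := by rw [← sum_mul, c.mass_sum, one_mul]
  have b2 : - pair c vF (c.step * F - F) ≤ 2 * L ^ 2 := by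
    calc - pair c vF (c.step * F - F)
        = ∑ z, c.mass z * ∑ a, -(v z a * F z a * ((c.step * F) z a - F z a)) := by
          simp only [pair, hvF, Matrix.of_apply, Matrix.sub_apply, sum_neg_distrib, mul_neg]
      _ ≤ ∑ z, c.mass z * ∑ a, |v z a| * (L * 2) := by
          refine sum_le_sum fun z _ => mul_le_mul_of_nonneg_left (sum_le_sum fun a _ => ?_)
            (c.mass_nonneg z)
          refine (neg_le_abs _).trans ?_
          rw [abs_mul, abs_mul, abs_of_nonneg (hF0 z a), mul_assoc]
          exact mul_le_mul_of_nonneg_left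
            (mul_le_mul (hFL z a) (hPF z a) (abs_nonneg _) hL0) (abs_nonneg _)
      _ ≤ ∑ z, c.mass z * (L * (L * 2)) := by
          refine sum_le_sum fun z _ => mul_le_mul_of_nonneg_left ?_ (c.mass_nonneg z)
          rw [← sum_mul]
          exact mul_le_mul_of_nonneg_right (hL z) (by positivity)
      _ = 2 * L ^ 2 := by rw [← sum_mul, c.mass_sum, one_mul]; ring
  linarith

lemma le_cube_div {d lam : ℝ} (hd : 0 ≤ d) (hlam : 0 < lam) : d ≤ d ^ 3 / lam ^ 2 + lam := by
  rcases le_total d lam with h | h
  · have : 0 ≤ d ^ 3 / lam ^ 2 := by positivity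
    linarith
  · have : d ≤ d ^ 3 / lam ^ 2 := by
      rw [le_div_iff₀ (by positivity)]
      nlinarith [mul_le_mul h h hlam.le hd]
    linarith

/-- An antisymmetric edge function cannot correlate with the tails of an average of a nonnegative
family. -/
lemma abs_pair_tail_le {v : Matrix S (Fin n) ℝ} (hv : Pos v) {L lam : ℝ} (hL : Tot L v)
    (hL0 : 0 ≤ L) (hlam : 0 < lam) (hstat : Tot 2 (c.step * v - v))
    (g : S → S → Fin n → ℝ) (hanti : ∀ x y a, g y x a = - g x y a)
    (hg : ∀ x y, ∑ a, |g x y a| ≤ 1) :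
    |e2 c (fun x y => ∑ b, g x y b * tail v x b)| ≤ 96 * L ^ 2 / lam ^ 2 + lam := by
  set F := tail v
  have hsw : e2 c (fun x y => ∑ b, g x y b * F x b)
      = (1 / 2) * e2 c (fun x y => ∑ b, g x y b * (F x b - F y b)) := by
    have h1 : e2 c (fun x y => ∑ b, g x y b * F y b)
        = - e2 c (fun x y => ∑ b, g x y b * F x b) := by
      rw [← e2_swap c, ← e2_neg c]
      congr 1
      funext x y
      rw [← sum_neg_distrib]
      exact sum_congr rfl fun b _ => by rw [hanti]; ring
    have h2 : e2 c (fun x y => ∑ b, g x y b * (F x b - F y b))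
        = e2 c (fun x y => ∑ b, g x y b * F x b) - e2 c (fun x y => ∑ b, g x y b * F y b) := by
      simp only [e2, mul_sub, sum_sub_distrib]
    rw [h2, h1]; ring
  have hpt : ∀ x y, |∑ b, g x y b * (F x b - F y b)|
      ≤ 8 / lam ^ 2 * (gap v x y + gap v y x) + lam := by
    intro x y
    set B := 8 / lam ^ 2 * (gap v x y + gap v y x) + lam
    have hb : ∀ b, |F x b - F y b| ≤ B := by
      intro b
      refine (le_cube_div (abs_nonneg _) hlam).trans ?_
      have := cube hv x y b
      rw [abs_sub_comm] at this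
      have h' : |F x b - F y b| ^ 3 / lam ^ 2 ≤ 8 * (gap v x y + gap v y x) / lam ^ 2 :=
        div_le_div_of_nonneg_right this (by positivity)
      have he : 8 * (gap v x y + gap v y x) / lam ^ 2
          = 8 / lam ^ 2 * (gap v x y + gap v y x) := by ring
      linarith
    have hB : 0 ≤ B := by
      have : ∀ p q, 0 ≤ gap v p q := fun p q =>
        sum_nonneg fun a _ => mul_nonneg (hv p a) (sq_nonneg _)
      have := this x y; have := (fun p q => sum_nonneg fun a _ => mul_nonneg (hv p a)
        (sq_nonneg (tail v q a - tail v p a)) : ∀ p q, 0 ≤ gap v p q) y x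
      positivity
    calc |∑ b, g x y b * (F x b - F y b)| ≤ ∑ b, |g x y b| * B :=
          (abs_sum_le_sum_abs _ _).trans (sum_le_sum fun b _ => by
            rw [abs_mul]; exact mul_le_mul_of_nonneg_left (hb b) (abs_nonneg _))
      _ ≤ 1 * B := by rw [← sum_mul]; exact mul_le_mul_of_nonneg_right (hg x y) hB
      _ = B := one_mul B
  have hG := e2_gap_le c hv hL hL0 hstat
  have hG' : e2 c (fun x y => gap v y x) = e2 c (gap v) := e2_swap c _
  rw [hsw, abs_mul]
  calc |(1 / 2 : ℝ)| * |e2 c (fun x y => ∑ b, g x y b * (F x b - F y b))|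
      ≤ 1 * e2 c (fun x y => 8 / lam ^ 2 * (gap v x y + gap v y x) + lam) :=
        mul_le_mul (by norm_num) ((abs_e2_le c _).trans (e2_mono c hpt)) (abs_nonneg _) one_pos.le
    _ ≤ 96 * L ^ 2 / lam ^ 2 + lam := by
        rw [one_mul, e2_add, e2_const, e2_mul, e2_add, hG']
        have : 8 / lam ^ 2 * (e2 c (gap v) + e2 c (gap v)) ≤ 8 / lam ^ 2 * (12 * L ^ 2) :=
          mul_le_mul_of_nonneg_left (by linarith) (by positivity)
        have he : 8 / lam ^ 2 * (12 * L ^ 2) = 96 * L ^ 2 / lam ^ 2 := by ring
        linarith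

end Vale.Agent.P125.Op
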