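import Vale.Agent.P125.OpMoments

/-!
The third moment of the largest prefix of the displacement of an `ℓ¹`-Lipschitz function.
-/

namespace Vale.Agent.P125.Op

open Finset Matrix

variable {S : Type} [Fintype S] [DecidableEq S] {n : ℕ}

set_option linter.unusedSectionVars false

lemma cube_telescope (δ : ℕ → ℝ) (k : ℕ) :
    |∑ i ∈ range k, δ i| ^ 3 ≤ 3 * ∑ i ∈ range k, |δ i| * (∑ j ∈ range (i + 1), δ j) ^ 2 := by
  induction k with
  | zero => simp
  | succ k ih =>
    rw [sum_range_succ (fun i => |δ i| * (∑ j ∈ range (i + 1), δ j) ^ 2), mul_add]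
    set p := |∑ i ∈ range (k + 1), δ i| with hp
    set q := |∑ i ∈ range k, δ i| with hq
    have hpq : p - q ≤ |δ k| := by
      rw [hp, hq, sum_range_succ]
      have := abs_add_le (∑ i ∈ range k, δ i) (δ k)
      linarith
    have p0 : 0 ≤ p := abs_nonneg _
    have q0 : 0 ≤ q := abs_nonneg _
    have tangent : p ^ 3 - q ^ 3 ≤ 3 * p ^ 2 * (p - q) := by
      nlinarith [mul_nonneg (sq_nonneg (p - q)) (add_nonneg (add_nonneg p0 p0) q0)]
    have hsq : (∑ j ∈ range (k + 1), δ j) ^ 2 = p ^ 2 := by rw [hp, sq_abs]
    rw [hsq]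
    nlinarith [mul_le_mul_of_nonneg_left hpq (by positivity : (0 : ℝ) ≤ 3 * p ^ 2)]

lemma cube_prefix (v : Fin n → ℝ) (a : Fin n) :
    |∑ b ∈ Iic a, v b| ^ 3 ≤ 3 * ∑ b, |v b| * (∑ d ∈ Iic b, v d) ^ 2 := by
  set δ : ℕ → ℝ := fun i => if h : i < n then v ⟨i, h⟩ else 0 with hδ
  have hv : ∀ b : Fin n, δ b = v b := fun b => by simp [hδ]
  have hI : ∀ b : Fin n, ∑ d ∈ Iic b, v d = ∑ i ∈ range (b + 1), δ i := by
    intro b
    rw [Nat.range_succ_eq_Iic, ← Fin.map_valEmbedding_Iic, sum_map]
    exact sum_congr rfl fun d _ => (hv d).symm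
  rw [hI]
  refine (cube_telescope δ _).trans (mul_le_mul_of_nonneg_left ?_ (by norm_num))
  refine (sum_le_sum_of_subset_of_nonneg (range_subset_range.2 (Nat.succ_le_of_lt a.isLt))
    fun i _ _ => by positivity).trans ?_
  rw [← Fin.sum_univ_eq_sum_range (fun i => |δ i| * (∑ j ∈ range (i + 1), δ j) ^ 2) n]
  refine le_of_eq (sum_congr rfl fun b _ => ?_)
  rw [hv, hI]

variable (c : Chain S) (f : S → Fin n → ℝ)

lemma rev_pow (m : ℕ) (x y : S) :
    c.mass x * (c.step ^ m) x y = c.mass y * (c.step ^ m) y x := by
  induction m generalizing x y with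
  | zero =>
    simp only [pow_zero, Matrix.one_apply]
    by_cases h : x = y
    · subst h; rfl
    · rw [if_neg h, if_neg (Ne.symm h)]; ring
  | succ m ih =>
    rw [pow_succ, Matrix.mul_apply, mul_sum, ← pow_succ, pow_succ', Matrix.mul_apply, mul_sum]
    refine sum_congr rfl fun z _ => ?_
    rw [← mul_assoc, ih x z, mul_right_comm, c.rev z y]
    ring

/-- The variation at `a` of all the steps of the paths from `x` to `y` of length `t`. -/
noncomputable def travel : ℕ → S → S → Fin n → ℝ
  | 0, _, _, _ => 0
  | t + 1, x, y, a => ∑ z, (travel t x z a * c.step z y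
      + (c.step ^ t) x z * c.step z y * |inc c f z y a|)

lemma weight_step_le_travel (t : ℕ) (x y : S) (a : Fin n) :
    c.mass x * ((c.step ^ t) x y * |f y a - f x a|) ≤ c.mass x * travel c f t x y a := by
  induction t generalizing y with
  | zero =>
    by_cases h : x = y
    · subst h; simp [travel]
    · simp [travel, Matrix.one_apply, h]
  | succ t ih =>
    simp only [travel, pow_succ, Matrix.mul_apply, sum_mul, mul_sum]
    refine sum_le_sum fun z _ => ?_
    have hz := ih z
    have h1 : |f y a - f x a| ≤ |f z a - f x a| + |f y a - f z a| := by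
      have := abs_add_le (f z a - f x a) (f y a - f z a)
      rwa [sub_add_sub_cancel', ] at this
    have hw : c.mass x * (c.step ^ t) x z * c.step z y * |f y a - f z a|
        = c.mass x * (c.step ^ t) x z * c.step z y * |inc c f z y a| := by
      rw [rev_pow c t x z]
      have e := weight_inc c f z y a
      have e' := congrArg abs e
      simp only [abs_mul, abs_of_nonneg (c.mass_nonneg z), abs_of_nonneg (c.step_nonneg z y)] at e'
      linear_combination (-(c.step ^ t) z x) * e'
    calc c.mass x * ((c.step ^ t) x z * c.step z y * |f y a - f x a|)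
        ≤ c.mass x * ((c.step ^ t) x z * c.step z y * (|f z a - f x a| + |f y a - f z a|)) := by
          refine mul_le_mul_of_nonneg_left (mul_le_mul_of_nonneg_left h1 ?_) (c.mass_nonneg x)
          exact mul_nonneg (pow_nonneg_entry c t x z) (c.step_nonneg z y)
      _ = c.mass x * ((c.step ^ t) x z * |f z a - f x a|) * c.step z y
          + c.mass x * (c.step ^ t) x z * c.step z y * |f y a - f z a| := by ring
      _ ≤ c.mass x * travel c f t x z a * c.step z y
          + c.mass x * (c.step ^ t) x z * c.step z y * |inc c f z y a| :=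
          add_le_add (mul_le_mul_of_nonneg_right hz (c.step_nonneg z y)) hw.le
      _ = _ := by ring

lemma travel_eq (t : ℕ) (x y : S) (a : Fin n) :
    travel c f t x y a = ∑ r ∈ range t, ∑ u, ∑ v,
      (c.step ^ r) x u * c.step u v * |inc c f u v a| * (c.step ^ (t - 1 - r)) v y := by
  induction t generalizing y with
  | zero => simp [travel]
  | succ t ih =>
    simp only [travel, sum_add_distrib]
    rw [sum_range_succ]
    congr 1
    · simp only [ih, sum_mul]
      rw [sum_comm]
      refine sum_congr rfl fun r hr => ?_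
      rw [sum_comm]
      refine sum_congr rfl fun u _ => ?_
      rw [sum_comm]
      refine sum_congr rfl fun v _ => ?_
      have hrt : t + 1 - 1 - r = (t - 1 - r) + 1 := by
        have := mem_range.1 hr; omega
      rw [hrt, pow_succ, Matrix.mul_apply, mul_sum]
      exact sum_congr rfl fun z _ => by ring
    · simp [Matrix.one_apply]

/-- One term of the main inequality. -/
noncomputable def term (r m : ℕ) (D : S → S → S → S → Fin n → ℝ) : ℝ :=
  ∑ x, ∑ y, ∑ u, ∑ v, ∑ a,
    c.mass x * (c.step ^ r) x u * c.step u v * |inc c f u v a| * (c.step ^ m) v y * D x y u v a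

lemma term_start (r m : ℕ) (D : S → S → Fin n → ℝ) :
    term c f r m (fun x _ u _ a => D x u a)
      = ∑ u, c.mass u * ∑ a, nu c f u a * ∑ x, (c.step ^ r) u x * D x u a := by
  unfold term
  calc ∑ x, ∑ y, ∑ u, ∑ v, ∑ a,
        c.mass x * (c.step ^ r) x u * c.step u v * |inc c f u v a| * (c.step ^ m) v y * D x u a
      = ∑ u, ∑ a, ∑ x, ∑ v, ∑ y,
        c.mass x * (c.step ^ r) x u * c.step u v * |inc c f u v a| * D x u a
          * (c.step ^ m) v y := by
        refine (sum_congr rfl fun x _ => sum_comm).trans ?_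
        refine sum_comm.trans (sum_congr rfl fun u _ => ?_)
        refine (sum_congr rfl fun x _ => (sum_congr rfl fun y _ => sum_comm).trans sum_comm).trans ?_
        refine sum_comm.trans (sum_congr rfl fun a _ => sum_congr rfl fun x _ => ?_)
        exact sum_comm.trans (sum_congr rfl fun v _ => sum_congr rfl fun y _ => by ring)
    _ = _ := by
        refine sum_congr rfl fun u _ => ?_
        rw [mul_sum]
        refine sum_congr rfl fun a _ => ?_
        simp only [← mul_sum, pow_row_sum, mul_one]
        simp only [nu, Matrix.of_apply, mul_sum, sum_mul]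
        refine sum_congr rfl fun x _ => sum_congr rfl fun v _ => ?_
        rw [rev_pow c r x u]
        ring

lemma term_end (r m : ℕ) (D : S → S → Fin n → ℝ) :
    term c f r m (fun _ y _ v a => D y v a)
      = ∑ v, c.mass v * ∑ a, nu c f v a * ∑ y, (c.step ^ m) v y * D y v a := by
  rw [← term_start c f m r D]
  unfold term
  rw [sum_comm]
  refine sum_congr rfl fun y _ => sum_congr rfl fun x _ => ?_
  rw [sum_comm]
  refine sum_congr rfl fun v _ => sum_congr rfl fun u _ => sum_congr rfl fun a _ => ?_
  have habs : |inc c f u v a| = |inc c f v u a| := by rw [inc_anti c f v u, abs_neg]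
  rw [habs, rev_pow c r x u]
  have h1 := c.rev u v
  have h2 := rev_pow c m v y
  calc c.mass u * (c.step ^ r) u x * c.step u v * |inc c f v u a| * (c.step ^ m) v y * D y v a
      = (c.mass u * c.step u v) * (c.step ^ r) u x * |inc c f v u a| * (c.step ^ m) v y
          * D y v a := by ring
    _ = (c.mass v * (c.step ^ m) v y) * (c.step ^ r) u x * |inc c f v u a| * c.step v u
          * D y v a := by rw [h1]; ring
    _ = _ := by rw [h2]; ring

lemma term_middle_le (hf : ∀ x y, 0 < c.mass x * c.step x y → ∑ a, |f y a - f x a| ≤ 1)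
    (r m : ℕ) :
    term c f r m (fun _ _ u v a => preInc c f u v a ^ 2) ≤ 1 := by
  have hle : term c f r m (fun _ _ u v a => preInc c f u v a ^ 2)
      ≤ term c f r m (fun _ _ _ _ _ => 1) := by
    refine sum_le_sum fun x _ => sum_le_sum fun y _ => sum_le_sum fun u _ => sum_le_sum fun v _ =>
      sum_le_sum fun a _ => mul_le_mul_of_nonneg_left ?_ ?_
    · exact (sq_le_one_iff_abs_le_one _).2 (abs_preInc c f hf u v a)
    · have := c.mass_nonneg x; have := pow_nonneg_entry c r x u; have := c.step_nonneg u v
      have := pow_nonneg_entry c m v y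
      positivity
  refine hle.trans ?_
  rw [term_start c f r m (fun _ _ _ => 1)]
  simp only [mul_one, pow_row_sum]
  calc ∑ u, c.mass u * ∑ a, nu c f u a ≤ ∑ u, c.mass u * 1 :=
        sum_le_sum fun u _ => mul_le_mul_of_nonneg_left
          (le_trans (sum_le_sum fun a _ => le_abs_self _) (tot_nu c f hf u)) (c.mass_nonneg u)
    _ = 1 := by simp [c.mass_sum]

lemma term_le (hf : ∀ x y, 0 < c.mass x * c.step x y → ∑ a, |f y a - f x a| ≤ 1)
    {t r m : ℕ} (hr : r ≤ t) (hm : m ≤ t) {lam : ℝ} (hlam : 0 < lam) :
    term c f r m (fun x y _ _ a => (pre f y a - pre f x a) ^ 2)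
      ≤ 3 * (2 * (t * (1 + 4 * (96 * (t : ℝ) ^ 2 / lam ^ 2 + lam))) + 1) := by
  set K := (t : ℝ) * (1 + 4 * (96 * (t : ℝ) ^ 2 / lam ^ 2 + lam))
  have hK : ∀ k ≤ t, pair c (nu c f) (moment c f k) ≤ K := by
    intro k hk
    refine (pair_moment_le c f hf hk hlam).trans ?_
    refine mul_le_mul_of_nonneg_right (by exact_mod_cast hk) ?_
    positivity
  have hA : term c f r m (fun x _ u _ a => (pre f x a - pre f u a) ^ 2) ≤ K := by
    rw [term_start c f r m (fun x u a => (pre f x a - pre f u a) ^ 2)]
    exact hK r hr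
  have hB : term c f r m (fun _ y _ v a => (pre f y a - pre f v a) ^ 2) ≤ K := by
    rw [term_end c f r m (fun y v a => (pre f y a - pre f v a) ^ 2)]
    exact hK m hm
  have hC := term_middle_le c f hf r m
  have key : term c f r m (fun x y _ _ a => (pre f y a - pre f x a) ^ 2)
      ≤ 3 * (term c f r m (fun x _ u _ a => (pre f x a - pre f u a) ^ 2)
        + term c f r m (fun _ y _ v a => (pre f y a - pre f v a) ^ 2)
        + term c f r m (fun _ _ u v a => preInc c f u v a ^ 2)) := by
    unfold term
    simp only [← sum_add_distrib, mul_sum]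
    refine sum_le_sum fun x _ => sum_le_sum fun y _ => sum_le_sum fun u _ => sum_le_sum fun v _ =>
      sum_le_sum fun a _ => ?_
    set W := c.mass x * (c.step ^ r) x u * c.step u v * |inc c f u v a| * (c.step ^ m) v y with hW
    have hW0 : 0 ≤ W := by
      have := c.mass_nonneg x; have := pow_nonneg_entry c r x u; have := c.step_nonneg u v
      have := pow_nonneg_entry c m v y
      positivity
    rw [← mul_add, ← mul_add]
    by_cases hz : c.mass x * (c.step ^ r) x u * c.step u v = 0
    · have : W = 0 := by rw [hW, hz]; ring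
      rw [this]; simp
    · have hpos : 0 < c.mass u * c.step u v := by
        rw [rev_pow c r x u] at hz
        rcases mul_ne_zero_iff.1 hz with ⟨h1, h2⟩
        exact mul_pos ((c.mass_nonneg u).lt_of_ne' (mul_ne_zero_iff.1 h1).1)
          ((c.step_nonneg u v).lt_of_ne' h2)
      have hpi : preInc c f u v a = pre f v a - pre f u a := by
        have := weight_preInc c f u v a
        exact mul_left_cancel₀ hpos.ne' this
      rw [hpi, mul_left_comm]
      refine mul_le_mul_of_nonneg_left ?_ hW0
      set p := pre f x a - pre f u a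
      set q := pre f y a - pre f v a
      set s := pre f v a - pre f u a
      have : pre f y a - pre f x a = q + s - p := by simp only [p, q, s]; ring
      rw [this]
      nlinarith [sq_nonneg (q - s), sq_nonneg (q + p), sq_nonneg (s + p)]
  linarith

/-- The largest absolute prefix of the displacement, to the third power, on average. -/
lemma third_moment_le (hf : ∀ x y, 0 < c.mass x * c.step x y → ∑ a, |f y a - f x a| ≤ 1)
    (t : ℕ) {lam : ℝ} (hlam : 0 < lam) :
    ∑ x, ∑ y, c.mass x * (c.step ^ t) x y *
        ‖(fun a : Fin n => ∑ b ∈ Iic a, (f y b - f x b))‖ ^ 3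
      ≤ 3 * (t * (3 * (2 * (t * (1 + 4 * (96 * (t : ℝ) ^ 2 / lam ^ 2 + lam))) + 1))) := by
  calc ∑ x, ∑ y, c.mass x * (c.step ^ t) x y *
        ‖(fun a : Fin n => ∑ b ∈ Iic a, (f y b - f x b))‖ ^ 3
      ≤ ∑ x, ∑ y, c.mass x * (c.step ^ t) x y *
          (3 * ∑ b, |f y b - f x b| * (pre f y b - pre f x b) ^ 2) := by
        refine sum_le_sum fun x _ => sum_le_sum fun y _ => mul_le_mul_of_nonneg_left ?_
          (mul_nonneg (c.mass_nonneg x) (pow_nonneg_entry c t x y))
        set v := fun b => f y b - f x b with hv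
        have hR : 3 * ∑ b, |f y b - f x b| * (pre f y b - pre f x b) ^ 2
            = 3 * ∑ b, |v b| * (∑ d ∈ Iic b, v d) ^ 2 := by
          simp only [hv, pre, Matrix.of_apply, sum_sub_distrib]
        rw [hR]
        rcases isEmpty_or_nonempty (Fin n) with hn | hn
        · have h0 : (fun a : Fin n => ∑ b ∈ Iic a, v b) = 0 := by
            funext a; exact hn.elim a
          rw [h0]; simp
        obtain ⟨a, -, ha⟩ := exists_max_image (univ : Finset (Fin n))
          (fun a => |∑ b ∈ Iic a, v b|) univ_nonempty
        have hnorm : ‖(fun a : Fin n => ∑ b ∈ Iic a, v b)‖ ≤ |∑ b ∈ Iic a, v b| :=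
          (pi_norm_le_iff_of_nonneg (abs_nonneg _)).2 fun i => ha i (mem_univ i)
        exact (pow_le_pow_left₀ (norm_nonneg _) hnorm 3).trans (cube_prefix v a)
    _ ≤ ∑ x, ∑ y, 3 * ∑ b, c.mass x * travel c f t x y b * (pre f y b - pre f x b) ^ 2 := by
        refine sum_le_sum fun x _ => sum_le_sum fun y _ => ?_
        rw [mul_left_comm, mul_sum]
        refine mul_le_mul_of_nonneg_left (sum_le_sum fun b _ => ?_) (by norm_num)
        rw [← mul_assoc, mul_assoc (c.mass x)]
        exact mul_le_mul_of_nonneg_right (weight_step_le_travel c f t x y b) (sq_nonneg _)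
    _ = 3 * ∑ r ∈ range t,
          term c f r (t - 1 - r) (fun x y _ _ a => (pre f y a - pre f x a) ^ 2) := by
        simp only [← mul_sum]
        congr 1
        simp only [travel_eq, term, mul_sum, sum_mul]
        rw [sum_comm (s := range t)]
        refine sum_congr rfl fun x _ => ?_
        rw [sum_comm (s := range t)]
        refine sum_congr rfl fun y _ => ?_
        rw [sum_comm (t := range t)]
        refine sum_congr rfl fun r _ => ?_
        rw [sum_comm]
        refine sum_congr rfl fun u _ => ?_
        rw [sum_comm]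
        exact sum_congr rfl fun v _ => sum_congr rfl fun a _ => by ring
    _ ≤ 3 * ∑ _r ∈ range t, (3 * (2 * (t * (1 + 4 * (96 * (t : ℝ) ^ 2 / lam ^ 2 + lam))) + 1)) := by
        refine mul_le_mul_of_nonneg_left (sum_le_sum fun r hr => ?_) (by norm_num)
        have := mem_range.1 hr
        exact term_le c f hf this.le (by omega) hlam
    _ = _ := by rw [sum_const, card_range, nsmul_eq_mul]

end Vale.Agent.P125.Op
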