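import Vale.Agent.P125.OpCore

/-!
The second moments of prefixes of an `ℓ¹`-Lipschitz function along the chain, seen from a typical
edge and weighted by that edge's own variation.
-/

namespace Vale.Agent.P125.Op

open Finset Matrix

variable {S : Type} [Fintype S] [DecidableEq S] {n : ℕ}

set_option linter.unusedSectionVars false

variable (c : Chain S) (f : S → Fin n → ℝ)

/-- The increment of `f`, set to zero on the edges that the chain does not use. -/
noncomputable def inc (x y : S) (a : Fin n) : ℝ :=
  if 0 < c.mass x * c.step x y then f y a - f x a else 0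

/-- Prefix sums of `f`. -/
def pre : Matrix S (Fin n) ℝ := Matrix.of fun z a => ∑ b ∈ Iic a, f z b

/-- Prefix sums of the increment. -/
noncomputable def preInc (x y : S) (a : Fin n) : ℝ := ∑ b ∈ Iic a, inc c f x y b

/-- Expected absolute increment at a state. -/
noncomputable def nu : Matrix S (Fin n) ℝ :=
  Matrix.of fun z a => ∑ w, c.step z w * |inc c f z w a|

/-- The expected signed increment, as prefixes. -/
noncomputable def drift : Matrix S (Fin n) ℝ :=
  Matrix.of fun z a => ∑ w, c.step z w * preInc c f z w a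

/-- The expected squared increment. -/
noncomputable def quad : Matrix S (Fin n) ℝ :=
  Matrix.of fun z a => ∑ w, c.step z w * preInc c f z w a ^ 2

/-- The adjoint of the commutator of the chain with multiplication by the prefixes. -/
noncomputable def comm (u : Matrix S (Fin n) ℝ) : Matrix S (Fin n) ℝ :=
  Matrix.of fun v a => ∑ w, c.step v w * (- preInc c f v w a) * u w a

/-- Pointwise product. -/
def pmul (u v : Matrix S (Fin n) ℝ) : Matrix S (Fin n) ℝ := Matrix.of fun z a => u z a * v z a

lemma inc_anti (x y : S) (a : Fin n) : inc c f y x a = - inc c f x y a := by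
  unfold inc
  rw [← c.rev x y]
  split_ifs <;> simp

lemma weight_inc (x y : S) (a : Fin n) :
    c.mass x * c.step x y * inc c f x y a = c.mass x * c.step x y * (f y a - f x a) := by
  unfold inc
  split_ifs with h
  · rfl
  · have : c.mass x * c.step x y = 0 :=
      le_antisymm (not_lt.1 h) (mul_nonneg (c.mass_nonneg x) (c.step_nonneg x y))
    rw [this, zero_mul, zero_mul]

lemma weight_preInc (x y : S) (a : Fin n) :
    c.mass x * c.step x y * preInc c f x y a
      = c.mass x * c.step x y * (pre f y a - pre f x a) := by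
  simp only [preInc, pre, Matrix.of_apply, mul_sum, ← sum_sub_distrib]
  exact sum_congr rfl fun b _ => weight_inc c f x y b

section bounds

variable (hf : ∀ x y, 0 < c.mass x * c.step x y → ∑ a, |f y a - f x a| ≤ 1)

include hf

lemma sum_abs_inc (x y : S) : ∑ a, |inc c f x y a| ≤ 1 := by
  by_cases h : 0 < c.mass x * c.step x y
  · simpa [inc, h] using hf x y h
  · simp [inc, h]

lemma abs_preInc (x y : S) (a : Fin n) : |preInc c f x y a| ≤ 1 :=
  (abs_sum_le_sum_abs _ _).trans
    ((sum_le_sum_of_subset_of_nonneg (subset_univ _) fun i _ _ => abs_nonneg _).trans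
      (sum_abs_inc c f hf x y))

lemma pos_nu : Pos (nu c f) := fun z a =>
  sum_nonneg fun w _ => mul_nonneg (c.step_nonneg z w) (abs_nonneg _)

lemma tot_nu : Tot 1 (nu c f) := by
  intro z
  calc ∑ a, |nu c f z a| = ∑ w, c.step z w * ∑ a, |inc c f z w a| := by
        rw [sum_congr rfl fun a _ => abs_of_nonneg (pos_nu c f hf z a)]
        simp only [mul_sum]
        rw [sum_comm]
        rfl
    _ ≤ ∑ w, c.step z w * 1 :=
        sum_le_sum fun w _ => mul_le_mul_of_nonneg_left (sum_abs_inc c f hf z w) (c.step_nonneg z w)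
    _ = 1 := by simp [c.step_sum]

lemma tot_comm {u : Matrix S (Fin n) ℝ} (hu : Tot 1 u) : Tot 1 (comm c f u) := by
  intro v
  calc ∑ a, |comm c f u v a| ≤ ∑ a, ∑ w, c.step v w * |u w a| := by
        refine sum_le_sum fun a _ => (abs_sum_le_sum_abs _ _).trans (sum_le_sum fun w _ => ?_)
        rw [abs_mul, abs_mul, abs_neg, abs_of_nonneg (c.step_nonneg v w)]
        have h1 := abs_preInc c f hf v w a
        have := c.step_nonneg v w
        have := abs_nonneg (u w a)
        calc c.step v w * |preInc c f v w a| * |u w a| ≤ c.step v w * 1 * |u w a| := by gcongr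
          _ = c.step v w * |u w a| := by rw [mul_one]
    _ = ∑ w, c.step v w * ∑ a, |u w a| := by rw [sum_comm]; simp only [mul_sum]
    _ ≤ ∑ w, c.step v w * 1 :=
        sum_le_sum fun w _ => mul_le_mul_of_nonneg_left (hu w) (c.step_nonneg v w)
    _ = 1 := by simp [c.step_sum]

lemma pair_quad_le {u : Matrix S (Fin n) ℝ} (hu : Tot 1 u) : pair c u (quad c f) ≤ 1 := by
  calc pair c u (quad c f) ≤ ∑ z, c.mass z * 1 := by
        refine sum_le_sum fun z _ => mul_le_mul_of_nonneg_left ?_ (c.mass_nonneg z)
        calc ∑ a, u z a * quad c f z a ≤ ∑ a, |u z a| * 1 := by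
              refine sum_le_sum fun a _ => ?_
              have hq0 : 0 ≤ quad c f z a :=
                sum_nonneg fun w _ => mul_nonneg (c.step_nonneg z w) (sq_nonneg _)
              have hq1 : quad c f z a ≤ 1 := by
                refine le_trans (sum_le_sum fun w _ => ?_) (c.step_sum z).le
                exact mul_le_of_le_one_right (c.step_nonneg z w)
                  ((sq_le_one_iff_abs_le_one _).2 (abs_preInc c f hf z w a))
              exact mul_le_mul (le_abs_self _) hq1 hq0 (abs_nonneg _)
          _ ≤ 1 := by simpa using hu z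
    _ = 1 := by simp [c.mass_sum]

end bounds

lemma pair_drift (u : Matrix S (Fin n) ℝ) :
    pair c u (drift c f) = pair c u (c.step * pre f - pre f) := by
  simp only [pair, drift, Matrix.sub_apply, Matrix.mul_apply, Matrix.of_apply, mul_sum]
  refine sum_congr rfl fun z _ => sum_congr rfl fun a _ => ?_
  have : pre f z a = ∑ w, c.step z w * pre f z a := by rw [← sum_mul, c.step_sum, one_mul]
  conv_rhs => rw [this, ← sum_sub_distrib, mul_sum, mul_sum]
  refine sum_congr rfl fun w _ => ?_
  have h := weight_preInc c f z w a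
  calc c.mass z * (u z a * (c.step z w * preInc c f z w a))
      = u z a * (c.mass z * c.step z w * preInc c f z w a) := by ring
    _ = _ := by rw [h]; ring

lemma pair_comm_op (u k : Matrix S (Fin n) ℝ) :
    pair c (comm c f u) k
      = pair c u (c.step * pmul (pre f) k - pmul (pre f) (c.step * k)) := by
  have : pair c u (c.step * pmul (pre f) k - pmul (pre f) (c.step * k))
      = e2 c (fun x y => ∑ a, u y a * ((pre f x a - pre f y a) * k x a)) := by
    rw [← e2_swap]
    unfold pair e2
    refine sum_congr rfl fun x _ => ?_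
    simp only [pmul, Matrix.sub_apply, Matrix.mul_apply, Matrix.of_apply, mul_sum,
      ← sum_sub_distrib]
    rw [sum_comm]
    exact sum_congr rfl fun y _ => sum_congr rfl fun a _ => by ring
  rw [this]
  unfold pair e2
  refine sum_congr rfl fun x _ => ?_
  simp only [comm, Matrix.of_apply, sum_mul, mul_sum]
  rw [sum_comm]
  refine sum_congr rfl fun y _ => sum_congr rfl fun a _ => ?_
  calc c.mass x * (c.step x y * -preInc c f x y a * u y a * k x a)
      = -(c.mass x * c.step x y * preInc c f x y a) * (u y a * k x a) := by ring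
    _ = _ := by rw [weight_preInc]; ring

/-- The commutator of the `m`-th power with multiplication by the prefixes, at the drift. -/
noncomputable def cross (m : ℕ) : Matrix S (Fin n) ℝ :=
  c.step ^ m * pmul (pre f) (drift c f) - pmul (pre f) (c.step ^ m * drift c f)

lemma cross_succ (u : Matrix S (Fin n) ℝ) (m : ℕ) :
    pair c u (cross c f (m + 1))
      = pair c (c.step * u) (cross c f m) + pair c (comm c f u) (c.step ^ m * drift c f) := by
  rw [pair_comm_op, pair_step, ← pair_add_right]
  congr 1
  simp only [cross]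
  rw [Matrix.mul_sub, ← Matrix.mul_assoc, ← pow_succ', ← Matrix.mul_assoc, ← pow_succ']
  abel

section cross

variable (hf : ∀ x y, 0 < c.mass x * c.step x y → ∑ a, |f y a - f x a| ≤ 1)

include hf

lemma abs_pair_drift_le {v : Matrix S (Fin n) ℝ} (hv : Pos v) {L lam : ℝ} (hL : Tot L v)
    (hL0 : 0 ≤ L) (hlam : 0 < lam) (hstat : Tot 2 (c.step * v - v)) :
    |pair c v (drift c f)| ≤ 96 * L ^ 2 / lam ^ 2 + lam := by
  have h : pair c v (drift c f) = e2 c (fun x y => ∑ b, inc c f x y b * tail v x b) := by
    simp only [pair, e2, drift, preInc, tail, Matrix.of_apply, mul_sum]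
    refine sum_congr rfl fun z _ => ?_
    rw [sum_comm]
    refine sum_congr rfl fun w _ => ?_
    have hflip : (∑ a : Fin n, ∑ b ∈ Iic a, c.mass z * (v z a * (c.step z w * inc c f z w b)))
        = ∑ b : Fin n, ∑ a ∈ Ici b, c.mass z * (v z a * (c.step z w * inc c f z w b)) :=
      sum_comm' (by simp)
    rw [hflip]
    exact sum_congr rfl fun b _ => sum_congr rfl fun a _ => by ring
  rw [h]
  exact abs_pair_tail_le c hv hL hL0 hlam hstat _ (inc_anti c f) (sum_abs_inc c f hf)

lemma abs_pair_average_le {M : Matrix S (Fin n) ℝ} (hM : Tot 1 M) {t L : ℕ} (hLt : L ≤ t)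
    {lam : ℝ} (hlam : 0 < lam) :
    |∑ d ∈ range L, pair c M (c.step ^ d * drift c f)|
      ≤ 2 * (96 * (t : ℝ) ^ 2 / lam ^ 2 + lam) := by
  set Mp : Matrix S (Fin n) ℝ := Matrix.of fun z a => max (M z a) 0
  set Mm : Matrix S (Fin n) ℝ := Matrix.of fun z a => max (- M z a) 0
  have hsplit : M = Mp - Mm := by
    ext z a
    simp only [Mp, Mm, Matrix.sub_apply, Matrix.of_apply]
    rcases le_total (M z a) 0 with h | h
    · rw [max_eq_right h, max_eq_left (neg_nonneg.2 h)]; ring
    · rw [max_eq_left h, max_eq_right (neg_nonpos.2 h)]; ring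
  have bound : ∀ N : Matrix S (Fin n) ℝ, Pos N → Tot 1 N →
      |∑ d ∈ range L, pair c N (c.step ^ d * drift c f)|
        ≤ 96 * (t : ℝ) ^ 2 / lam ^ 2 + lam := by
    intro N hN hN1
    have heq : ∑ d ∈ range L, pair c N (c.step ^ d * drift c f)
        = pair c (∑ d ∈ range L, c.step ^ d * N) (drift c f) := by
      rw [pair_sum_left]
      exact sum_congr rfl fun d _ => (pair_pow c d N _).symm
    have hpos : Pos (∑ d ∈ range L, c.step ^ d * N) := by
      intro z a
      rw [Matrix.sum_apply]
      exact sum_nonneg fun d _ => hN.pow_mul c d z a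
    have htot : Tot (t : ℝ) (∑ d ∈ range L, c.step ^ d * N) := by
      intro z
      calc ∑ a, |(∑ d ∈ range L, c.step ^ d * N) z a|
          ≤ ∑ a, ∑ d ∈ range L, |(c.step ^ d * N) z a| := by
            refine sum_le_sum fun a _ => ?_
            rw [Matrix.sum_apply]
            exact abs_sum_le_sum_abs _ _
        _ = ∑ d ∈ range L, ∑ a, |(c.step ^ d * N) z a| := sum_comm
        _ ≤ ∑ d ∈ range L, (1 : ℝ) := sum_le_sum fun d _ => (hN1.pow_mul c d) z
        _ = L := by simp
        _ ≤ t := by exact_mod_cast hLt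
    have hstat : Tot 2 (c.step * (∑ d ∈ range L, c.step ^ d * N)
        - ∑ d ∈ range L, c.step ^ d * N) := by
      have : c.step * (∑ d ∈ range L, c.step ^ d * N) - ∑ d ∈ range L, c.step ^ d * N
          = c.step ^ L * N - N := by
        rw [Matrix.mul_sum, ← sum_sub_distrib]
        simp only [← Matrix.mul_assoc, ← pow_succ']
        rw [sum_range_sub (fun d => c.step ^ d * N) L]
        simp
      rw [this]
      intro z
      calc ∑ a, |(c.step ^ L * N - N) z a|
          ≤ ∑ a, |(c.step ^ L * N) z a| + ∑ a, |N z a| := by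
            rw [← sum_add_distrib]
            exact sum_le_sum fun a _ => abs_sub _ _
        _ ≤ 1 + 1 := add_le_add ((hN1.pow_mul c L) z) (hN1 z)
        _ = 2 := by norm_num
    rw [heq]
    exact abs_pair_drift_le c f hf hpos htot t.cast_nonneg hlam hstat
  have hp : Tot 1 Mp := fun z => le_trans (sum_le_sum fun a _ => by
    simp only [Mp, Matrix.of_apply]
    rw [abs_of_nonneg (le_max_right _ _)]
    exact max_le (le_abs_self _) (abs_nonneg _)) (hM z)
  have hm : Tot 1 Mm := fun z => le_trans (sum_le_sum fun a _ => by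
    simp only [Mm, Matrix.of_apply]
    rw [abs_of_nonneg (le_max_right _ _)]
    exact max_le (neg_le_abs _) (abs_nonneg _)) (hM z)
  have h1 := bound Mp (fun z a => le_max_right _ _) hp
  have h2 := bound Mm (fun z a => le_max_right _ _) hm
  rw [hsplit]
  simp only [pair_sub_left, sum_sub_distrib]
  refine (abs_sub _ _).trans ?_
  linarith

lemma abs_sum_cross_le {t : ℕ} {lam : ℝ} (hlam : 0 < lam) :
    ∀ m ≤ t, ∀ u : Matrix S (Fin n) ℝ, Tot 1 u →
      |∑ j ∈ range m, pair c u (cross c f j)| ≤ m * (2 * (96 * (t : ℝ) ^ 2 / lam ^ 2 + lam)) := by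
  intro m
  induction m with
  | zero => intro _ u _; simp
  | succ m ih =>
    intro hm u hu
    have h0 : pair c u (cross c f 0) = 0 := by simp [cross, pair]
    rw [sum_range_succ', h0, add_zero]
    simp only [cross_succ, sum_add_distrib]
    refine (abs_add_le _ _).trans ?_
    have a1 := ih (by omega) _ (hu.step_mul c)
    have a2 := abs_pair_average_le c f hf (tot_comm c f hf hu) (t := t) (L := m) (by omega) hlam
    push_cast
    linarith

end cross

/-- The second moment of the prefix after `m` steps. -/
def moment (m : ℕ) : Matrix S (Fin n) ℝ :=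
  Matrix.of fun z a => ∑ w, (c.step ^ m) z w * (pre f w a - pre f z a) ^ 2

lemma pow_row_sum (m : ℕ) (z : S) : ∑ w, (c.step ^ m) z w = 1 := by
  induction m generalizing z with
  | zero => simp [Matrix.one_apply]
  | succ m ih =>
    simp only [pow_succ, Matrix.mul_apply]
    rw [sum_comm]
    simp only [← mul_sum, c.step_sum, mul_one, ih]

lemma pow_nonneg_entry (m : ℕ) (z w : S) : 0 ≤ (c.step ^ m) z w := by
  induction m generalizing w with
  | zero => simp only [pow_zero, Matrix.one_apply]; split_ifs <;> norm_num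
  | succ m ih =>
    simp only [pow_succ, Matrix.mul_apply]
    exact sum_nonneg fun v _ => mul_nonneg (ih v) (c.step_nonneg v w)

lemma pair_moment_succ (u : Matrix S (Fin n) ℝ) (m : ℕ) :
    pair c u (moment c f (m + 1))
      = pair c u (moment c f m) + pair c (c.step ^ m * u) (quad c f)
        + 2 * pair c u (cross c f m) := by
  set P := c.step
  set Φ := pre f
  set Φ2 : Matrix S (Fin n) ℝ := pmul Φ Φ
  have hexp : ∀ k, moment c f k = P ^ k * Φ2 - (2 : ℝ) • pmul Φ (P ^ k * Φ) + Φ2 := by
    intro k
    ext z a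
    simp only [moment, Φ2, pmul, Matrix.add_apply, Matrix.sub_apply, Matrix.smul_apply,
      Matrix.mul_apply, Matrix.of_apply, smul_eq_mul, mul_sum, ← sum_sub_distrib]
    have : Φ z a * Φ z a = ∑ w, (P ^ k) z w * (Φ z a * Φ z a) := by
      rw [← sum_mul, pow_row_sum, one_mul]
    rw [this, ← sum_add_distrib]
    exact sum_congr rfl fun w _ => by ring
  have hd : ∀ p : Matrix S (Fin n) ℝ, pair c p (pmul Φ (drift c f))
      = pair c p (pmul Φ (P * Φ - Φ)) := by
    intro p
    have h := pair_drift c f (pmul p Φ)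
    simpa only [pair, pmul, Matrix.of_apply, mul_assoc] using h
  have hq : ∀ p : Matrix S (Fin n) ℝ, pair c p (quad c f)
      = pair c p (P * Φ2 - (2 : ℝ) • pmul Φ (P * Φ) + Φ2) := by
    intro p
    have h1 : P * Φ2 - (2 : ℝ) • pmul Φ (P * Φ) + Φ2 = moment c f 1 := by
      rw [hexp 1, pow_one]
    rw [h1]
    simp only [pair, quad, moment, pow_one, Matrix.of_apply, mul_sum]
    refine sum_congr rfl fun z _ => sum_congr rfl fun a _ => sum_congr rfl fun w _ => ?_
    have h := weight_preInc c f z w a
    calc c.mass z * (p z a * (P z w * preInc c f z w a ^ 2))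
        = p z a * preInc c f z w a * (c.mass z * P z w * preInc c f z w a) := by ring
      _ = p z a * preInc c f z w a * (c.mass z * c.step z w * (pre f w a - pre f z a)) := by rw [h]
      _ = p z a * (pre f w a - pre f z a) * (c.mass z * c.step z w * preInc c f z w a) := by ring
      _ = p z a * (pre f w a - pre f z a) * (c.mass z * c.step z w * (pre f w a - pre f z a)) := by
          rw [h]
      _ = c.mass z * (p z a * (c.step z w * (pre f w a - pre f z a) ^ 2)) := by ring
  have hd' : pair c (pmul u Φ) (P ^ m * drift c f)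
      = pair c (pmul u Φ) (P ^ m * (P * Φ - Φ)) := by
    rw [← pair_pow, ← pair_pow, pair_drift]
  have hpm : ∀ q r : Matrix S (Fin n) ℝ, pair c q (pmul Φ r) = pair c (pmul q Φ) r := by
    intro q r
    simp only [pair, pmul, Matrix.of_apply, mul_assoc]
  have hcross : pair c u (cross c f m)
      = pair c (P ^ m * u) (pmul Φ (P * Φ - Φ)) - pair c u (pmul Φ (P ^ m * (P * Φ - Φ))) := by
    rw [cross, pair_sub_right, ← pair_pow, hd, hpm u, hd', ← hpm u]
  rw [hcross, hq, pair_pow, pair_pow, hexp, hexp]
  have e1 : pmul Φ (P * Φ - Φ) = pmul Φ (P * Φ) - Φ2 := by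
    ext z a; simp only [pmul, Φ2, Matrix.sub_apply, Matrix.of_apply]; ring
  have e2' : pmul Φ (P ^ m * (P * Φ - Φ)) = pmul Φ (P ^ (m + 1) * Φ) - pmul Φ (P ^ m * Φ) := by
    rw [Matrix.mul_sub, ← Matrix.mul_assoc, ← pow_succ]
    ext z a; simp only [pmul, Matrix.sub_apply, Matrix.of_apply]; ring
  rw [e1, e2', Matrix.mul_add, Matrix.mul_sub, Matrix.mul_sub, Matrix.mul_smul,
    ← Matrix.mul_assoc, ← pow_succ]
  have s2 : ∀ q : Matrix S (Fin n) ℝ, pair c u ((2 : ℝ) • q) = 2 * pair c u q := by
    intro q
    simp only [pair, Matrix.smul_apply, smul_eq_mul, mul_sum]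
    exact sum_congr rfl fun z _ => sum_congr rfl fun a _ => by ring
  simp only [pair_add_right, pair_sub_right, s2]
  ring

lemma pair_moment_le (hf : ∀ x y, 0 < c.mass x * c.step x y → ∑ a, |f y a - f x a| ≤ 1)
    {t m : ℕ} (hm : m ≤ t) {lam : ℝ} (hlam : 0 < lam) :
    pair c (nu c f) (moment c f m)
      ≤ m * (1 + 4 * (96 * (t : ℝ) ^ 2 / lam ^ 2 + lam)) := by
  have hsum : ∀ k, pair c (nu c f) (moment c f k)
      = ∑ j ∈ range k, pair c (c.step ^ j * nu c f) (quad c f)
        + 2 * ∑ j ∈ range k, pair c (nu c f) (cross c f j) := by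
    intro k
    induction k with
    | zero =>
      simp only [range_zero, sum_empty, mul_zero, add_zero]
      simp [pair, moment, Matrix.one_apply]
    | succ k ih => rw [pair_moment_succ, ih, sum_range_succ, sum_range_succ]; ring
  rw [hsum]
  have a1 : ∑ j ∈ range m, pair c (c.step ^ j * nu c f) (quad c f) ≤ ∑ _j ∈ range m, (1 : ℝ) :=
    sum_le_sum fun j _ => pair_quad_le c f hf ((tot_nu c f hf).pow_mul c j)
  simp only [sum_const, card_range, nsmul_eq_mul, mul_one] at a1
  have a2 := abs_le.1 (abs_sum_cross_le c f hf hlam m hm (nu c f) (tot_nu c f hf))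
  nlinarith [a2.2]

end Vale.Agent.P125.Op
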