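import Vale.Agent.P125.OpMain

namespace Vale.Agent.P125.Op.ThirdMomentSumming

open Finset

/-- The summing operator from `ℓ¹` to `ℓ∞` has sublinear growth along every stationary reversible
finite Markov chain, with a power gain that is uniform in the chain and in the dimension. -/
theorem result :
    ∃ C : ℝ, ∀ (S : Type) [Fintype S] [DecidableEq S] (π : S → ℝ) (P : Matrix S S ℝ),
      (∀ x, 0 ≤ π x) → (∑ x, π x = 1) → (∀ x y, 0 ≤ P x y) → (∀ x, ∑ y, P x y = 1) →
      (∀ x y, π x * P x y = π y * P y x) →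
      ∀ (n : ℕ) (f : S → Fin n → ℝ) (L : ℝ), 0 ≤ L →
        (∀ x y, 0 < π x * P x y → ∑ a, |f y a - f x a| ≤ L) →
        ∀ t : ℕ, ∑ x, ∑ y, π x * (P ^ t) x y *
            ‖(fun a : Fin n => ∑ b ∈ Iic a, (f y b - f x b))‖ ^ 3
          ≤ C * L ^ 3 * (t : ℝ) ^ ((8 : ℝ) / 3) := by
  refine ⟨10000, ?_⟩
  intro S _ _ π P h1 h2 h3 h4 h5 n f L hL hf t
  set c : Vale.Agent.P125.Op.Chain S := ⟨π, P, h1, h2, h3, h4, h5⟩ with hc
  rcases Nat.eq_zero_or_pos t with ht | ht
  · subst ht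
    have h0 : ∀ x y : S, π x * (P ^ 0) x y *
        ‖(fun a : Fin n => ∑ b ∈ Iic a, (f y b - f x b))‖ ^ 3 = 0 := by
      intro x y
      by_cases h : x = y
      · subst h
        have : (fun a : Fin n => ∑ b ∈ Iic a, (f x b - f x b)) = 0 := by funext a; simp
        rw [this]; simp
      · simp [h]
    simp only [h0, sum_const_zero]
    simp
  set s : ℝ := (t : ℝ) ^ ((1 : ℝ) / 3) with hs
  have hts : (1 : ℝ) ≤ t := by exact_mod_cast ht
  have hs1 : 1 ≤ s := Real.one_le_rpow hts (by norm_num)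
  have hs3 : s ^ 3 = t := by
    rw [hs, ← Real.rpow_natCast, ← Real.rpow_mul (by positivity)]; norm_num
  have hs8 : (t : ℝ) ^ ((8 : ℝ) / 3) = s ^ 8 := by
    rw [hs, ← Real.rpow_natCast _ 8, ← Real.rpow_mul (by positivity)]; norm_num
  rw [hs8]
  -- Apply the bound for `f / M`, where `M` bounds every edge.
  have main : ∀ M : ℝ, 0 < M → (∀ x y, 0 < π x * P x y → ∑ a, |f y a - f x a| ≤ M) →
      ∑ x, ∑ y, π x * (P ^ t) x y * ‖(fun a : Fin n => ∑ b ∈ Iic a, (f y b - f x b))‖ ^ 3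
        ≤ 10000 * M ^ 3 * s ^ 8 := by
    intro M hM hfM
    have hg : ∀ x y, 0 < c.mass x * c.step x y → ∑ a, |f y a / M - f x a / M| ≤ 1 := by
      intro x y h
      simp only [← sub_div, abs_div, abs_of_pos hM, ← sum_div]
      exact (div_le_one hM).2 (hfM x y h)
    have key := Vale.Agent.P125.Op.third_moment_le c (fun x a => f x a / M) hg t
      (lam := s ^ 2) (by positivity)
    have hscale : ∀ x y : S, ‖(fun a : Fin n => ∑ b ∈ Iic a, (f y b - f x b))‖ ^ 3
        = M ^ 3 * ‖(fun a : Fin n => ∑ b ∈ Iic a, (f y b / M - f x b / M))‖ ^ 3 := by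
      intro x y
      have : (fun a : Fin n => ∑ b ∈ Iic a, (f y b - f x b))
          = M • (fun a : Fin n => ∑ b ∈ Iic a, (f y b / M - f x b / M)) := by
        funext a
        simp only [Pi.smul_apply, smul_eq_mul, mul_sum]
        exact sum_congr rfl fun b _ => by field_simp
      rw [this, norm_smul, Real.norm_eq_abs, abs_of_pos hM, mul_pow]
    simp only [hscale, mul_left_comm _ (M ^ 3), ← mul_sum]
    rw [show (10000 : ℝ) * M ^ 3 * s ^ 8 = M ^ 3 * (10000 * s ^ 8) by ring]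
    refine mul_le_mul_of_nonneg_left (key.trans ?_) (by positivity)
    have hp : (t : ℝ) ^ 2 / (s ^ 2) ^ 2 = s ^ 2 := by
      rw [← hs3]; field_simp
    rw [mul_div_assoc, hp, ← hs3]
    nlinarith [pow_le_pow_right₀ hs1 (show 3 ≤ 8 by norm_num),
      pow_le_pow_right₀ hs1 (show 6 ≤ 8 by norm_num)]
  -- Let `M` tend to `L`.
  have hcont : Filter.Tendsto (fun M : ℝ => 10000 * M ^ 3 * s ^ 8)
      (nhdsWithin L (Set.Ioi L)) (nhds (10000 * L ^ 3 * s ^ 8)) :=
    (Continuous.tendsto (by fun_prop) L).mono_left nhdsWithin_le_nhds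
  refine ge_of_tendsto hcont ?_
  filter_upwards [self_mem_nhdsWithin] with M hM
  exact main M (hL.trans_lt hM) fun x y h => (hf x y h).trans (Set.mem_Ioi.1 hM).le

end Vale.Agent.P125.Op.ThirdMomentSumming
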